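import Vale.Agent.P370.Interface
import Vale.Agent.Lib.PolyTime.TypedTM2

/-!
The reduction: from a 3-CNF formula to an instance of the electronic ground-state energy problem.
All computations are in natural numbers.
-/

namespace Vale.Agent.P370

open Vale.Agent.Lib.PCP (CNF3 Lit)

namespace Alg

/-- A cell: its planar position, its height, and whether the unit charge of the reference
configuration is at the upper site. -/
abbrev CellN : Type := ((ℕ × ℕ) × ℕ) × Bool

/-- A site: its position, and whether it is occupied in the reference configuration. -/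
abbrev SiteN : Type := (ℕ × ℕ × ℕ) × Bool

/-- The number of contacts of the bus `i` at the place `x`. -/
def contactsN (ps : List ((ℕ × Bool) × (ℕ × Bool))) (Lam i x : ℕ) : ℕ :=
  (ps.zipIdx.map fun p =>
    (if p.1.1.1 = i ∧ x = (p.2 + 1) * Lam + (if p.1.1.2 then 0 else 1) then 1 else 0) +
    (if p.1.2.1 = i ∧ x = (p.2 + 1) * Lam + (if p.1.2.2 then 1 else 0) then 1 else 0)).sum

/-- The list of the cells; `2 a` is the spacing of the buses. -/
def cellsN (ps : List ((ℕ × Bool) × (ℕ × Bool))) (n m a ell D Lam W X : ℕ) : List CellN :=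
  ((List.range n).flatMap fun i => (List.range X).map fun x =>
    (((2 * a * x, 2 * a * (D + ell * i)), 20 + contactsN ps Lam i x), decide (x % 2 = 0))) ++
  (List.range m).map fun e => (((a * (2 * ((e + 1) * Lam) + 1), 0), W), true)

/-- The two sites of a cell. -/
def twoSites (W : ℕ) (c : CellN) : List SiteN :=
  [((c.1.1.1, c.1.1.2, W + c.1.2), c.2), ((c.1.1.1, c.1.1.2, W - c.1.2), !c.2)]

/-- Integer square root. -/
def isqrt (v : ℕ) : ℕ := ((List.range (v + 1)).filter fun s => decide (s * s ≤ v)).length - 1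

/-- Square of the difference of two natural numbers. -/
def sqd (x y : ℕ) : ℕ := (x - y) ^ 2 + (y - x) ^ 2

/-- Squared distance. -/
def sqDist (p p' : ℕ × ℕ × ℕ) : ℕ := sqd p.1 p'.1 + sqd p.2.1 p'.2.1 + sqd p.2.2 p'.2.2

/-- Approximation of `P / distance`, for pairs of sites which are not both occupied in the
reference configuration. -/
def pairTerm (P : ℕ) (p p' : SiteN) : ℕ :=
  if p.2 && p'.2 then 0 else isqrt (P ^ 2 / sqDist p.1 p'.1)

/-- Sum over the (ordered) pairs of sites. -/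
def pairSum (P : ℕ) (l : List SiteN) : ℕ :=
  (l.map fun p => (l.map fun p' => pairTerm P p p').sum).sum

/-- Number of clauses whose first literal is positive. -/
def posFirst (φ : CNF3) : ℕ := (φ.filter fun c => c.1.2).length

/-- The basic parameter. -/
def qq (φ : CNF3) : ℕ := 1000 * ((4 * φ.length + 1) + 6 * φ.length + 1)

/-- The cells of a formula. -/
def cellsOf (φ : CNF3) : List CellN :=
  let q := qq φ
  cellsN (allPairs φ) (4 * φ.length + 1) (6 * φ.length) (q ^ 212) (q ^ 32) (q ^ 34) (2 * q ^ 57)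
    (q ^ 67) ((6 * φ.length + 2) * (2 * q ^ 57))

/-- The sites of a formula. -/
def sitesOf (φ : CNF3) : List SiteN := (cellsOf φ).flatMap (twoSites (qq φ ^ 67))

/-- The scale `λ`; `C₀` is a constant. -/
def lam (C₀ : ℕ) (φ : CNF3) : ℕ := (C₀ * qq φ ^ 800) ^ 3

/-- Number of binary digits of the thresholds. -/
def digits (C₀ : ℕ) (φ : CNF3) : ℕ := 64 * qq φ ^ 671 * lam C₀ φ

/-- Common denominator of the thresholds before rounding. -/
def den (C₀ : ℕ) (φ : CNF3) : ℕ := 16 * qq φ ^ 671 * lam C₀ φ * qq φ ^ 800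

/-- Numerator of minus the lower threshold before rounding. -/
def numA (C₀ : ℕ) (φ : CNF3) : ℕ :=
  8 * qq φ ^ 671 * ((cellsOf φ).length * lam C₀ φ * qq φ ^ 800 +
    pairSum (qq φ ^ 800) (sitesOf φ)) + 8 * qq φ ^ 800 * posFirst φ - 2 * qq φ ^ 800

/-- Numerator of minus the upper threshold before rounding. -/
def numB (C₀ : ℕ) (φ : CNF3) : ℕ := numA C₀ φ - 4 * qq φ ^ 800

/-- `2 ⌊x 2^(k-1)⌋ + 1` for `x = num / den`: an odd numerator for the denominator `2 ^ k`. -/
def oddNum (k num den : ℕ) : ℕ := 2 * (num * 2 ^ (k - 1) / den) + 1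

/-- The threshold `- oddNum / 2 ^ k`. -/
def threshold (k num den : ℕ) : ℚ := -((oddNum k num den : ℕ) : ℚ) / ((2 ^ k : ℕ) : ℚ)

/-- The instance of a formula. -/
def inst (C₀ : ℕ) (φ : CNF3) : Instance where
  nuclei := (sitesOf φ).map fun p =>
    ((((lam C₀ φ * p.1.1 : ℕ) : ℚ), ((lam C₀ φ * p.1.2.1 : ℕ) : ℚ), ((lam C₀ φ * p.1.2.2 : ℕ) : ℚ)), 1)
  N := (cellsOf φ).length
  a := threshold (digits C₀ φ) (numA C₀ φ) (den C₀ φ)
  b := threshold (digits C₀ φ) (numB C₀ φ) (den C₀ φ)

end Alg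

open Vale.Agent.Lib.PolyTime in
/-- Block T1: the reduction is computable in polynomial time (clean form: a function on words). -/
def AlgPTStmt : Prop :=
  ∀ C₀ : ℕ, 1 ≤ C₀ → ∃ g : Word → Word, FP ∅ g ∧
    ∀ φ : CNF3, g (enc φ) = instW (Alg.inst C₀ φ)

/-- Block T2: the reduction is correct, for a constant `C₀`. -/
def AlgCorrectStmt : Prop :=
  ∃ C₀ : ℕ, 1 ≤ C₀ ∧ ∀ φ : CNF3,
    (∀ c, 1 ≤ c → (Alg.inst C₀ φ).Valid c) ∧
    (φ.Sat → (Alg.inst C₀ φ).E₀ ≤ ((Alg.inst C₀ φ).a : ℝ)) ∧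
    (¬ φ.Sat → ((Alg.inst C₀ φ).b : ℝ) ≤ (Alg.inst C₀ φ).E₀)

end Vale.Agent.P370
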