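import Vale.Agent.P363.Stmt
import Vale.Agent.P333.NPDefs

/-!
Definitions for problem P370: the electronic ground-state energy of point nuclei as a promise
problem, its binary encoding, and NP-hardness of promise problems.
-/

namespace Vale.Agent.P370

open Vale.Agent.P363.Stmt
open Vale.Agent.P333 (pairW listW PolyTime classNP)

/-! ### The ground-state energy -/

/-- `E₀ = inf spec H`: the infimum of the quadratic form of the electronic Hamiltonian of the nuclei
with charges `Z j` at the points `R j` over the normalized antisymmetric `N`-electron states (with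
spin) of finite kinetic energy. -/
noncomputable def groundEnergy {M : ℕ} (N : ℕ) (Z : Fin M → ℕ) (R : Fin M → R3) : ℝ :=
  sInf {e : ℝ | ∃ Ψ : ElectronState N, normSq Ψ = 1 ∧ energy (coulombPotential Z R) Ψ = e}

/-! ### Instances and their encoding -/

/-- An instance: the list of the nuclei (position, charge), the number of electrons, and the two
thresholds. -/
structure Instance where
  /-- the nuclei: rational position and charge -/
  nuclei : List ((ℚ × ℚ × ℚ) × ℕ)
  /-- the number of electrons -/
  N : ℕ
  /-- the lower threshold -/
  a : ℚ
  /-- the upper threshold -/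
  b : ℚ

/-- The code of an integer: a sign bit and the binary representation of the absolute value. -/
def intW (z : ℤ) : List Bool := decide (z < 0) :: Nat.bits z.natAbs

/-- The code of a rational number: signed binary numerator and positive binary denominator, in
lowest terms. -/
def ratW (q : ℚ) : List Bool := pairW (intW q.num) (Nat.bits q.den)

/-- The code of a nucleus. -/
def nucleusW (p : (ℚ × ℚ × ℚ) × ℕ) : List Bool :=
  pairW (pairW (ratW p.1.1) (pairW (ratW p.1.2.1) (ratW p.1.2.2))) (Nat.bits p.2)

/-- The code of an instance; the number of electrons is given in unary. -/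
def instW (I : Instance) : List Bool :=
  pairW (listW nucleusW I.nuclei) (pairW (List.replicate I.N true) (pairW (ratW I.a) (ratW I.b)))

/-- The total input length. -/
def Instance.length (I : Instance) : ℕ := (instW I).length

/-- The point of `ℝ³` with the given rational coordinates. -/
noncomputable def point (p : ℚ × ℚ × ℚ) : R3 := !₂[(p.1 : ℝ), (p.2.1 : ℝ), (p.2.2 : ℝ)]

/-- The ground-state energy of an instance. -/
noncomputable def Instance.E₀ (I : Instance) : ℝ :=
  groundEnergy I.N (fun j : Fin I.nuclei.length => (I.nuclei.get j).2)
    (fun j => point (I.nuclei.get j).1)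

/-- The instances allowed in the promise problem with exponent `c`: at least one nucleus, pairwise
distinct positions, positive charges, at least one electron, and `b - a ≥ L ^ (-c)`. -/
def Instance.Valid (c : ℕ) (I : Instance) : Prop :=
  I.nuclei ≠ [] ∧ (I.nuclei.map Prod.fst).Nodup ∧ (∀ p ∈ I.nuclei, 1 ≤ p.2) ∧ 1 ≤ I.N ∧
    1 / (I.length : ℝ) ^ c ≤ (I.b : ℝ) - (I.a : ℝ)

/-- The YES instances of the promise problem with exponent `c`. -/
def Yes (c : ℕ) : Set Instance := {I | I.Valid c ∧ I.E₀ ≤ (I.a : ℝ)}

/-- The NO instances of the promise problem with exponent `c`. -/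
def No (c : ℕ) : Set Instance := {I | I.Valid c ∧ (I.b : ℝ) ≤ I.E₀}

/-- A promise problem (a set of YES instances and a set of NO instances) is NP-hard: every language
in NP reduces to it by a polynomial-time many-one reduction. -/
def NPHard (yes no : Set Instance) : Prop :=
  ∀ L ∈ classNP, ∃ f : List Bool → Instance, PolyTime (fun w : List Bool => w) instW f ∧
    (∀ x, x ∈ L → f x ∈ yes) ∧ (∀ x, x ∉ L → f x ∈ no)

/-- All nuclei are protons at points with integer coordinates. -/
def Instance.IntegerProtons (I : Instance) : Prop :=
  ∀ p ∈ I.nuclei, p.2 = 1 ∧ p.1.1.den = 1 ∧ p.1.2.1.den = 1 ∧ p.1.2.2.den = 1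

end Vale.Agent.P370
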