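import Vale.Agent.P370.Defs
import Vale.Agent.Lib.PolyTime.TypedTM2
import Vale.Agent.Lib.PCP.PT.Fin

/-!
The interface problem HEIS (problem P370, line Q): the antiferromagnetic Heisenberg model on a
multigraph.  An instance is a number `n` of sites, a list of edges (repetitions = integer weights,
in unary) and a threshold `k`; the Hamiltonian is `∑_(a,b) (1 + SWAP_ab)`, acting on the functions
of the spin configurations.  YES: the lowest eigenvalue is `≤ k`; NO: it is `≥ k + 1`.
-/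

namespace Vale.Agent.P370.Heis

open Vale.Agent.Lib.PolyTime

/-- Squared norm of a (real) state of `n` spins. -/
def nsq {n : ℕ} (χ : (Fin n → Bool) → ℝ) : ℝ := ∑ s, χ s ^ 2

/-- The quadratic form of `1 + SWAP_ab`. -/
def pairForm {n : ℕ} (a b : Fin n) (χ : (Fin n → Bool) → ℝ) : ℝ :=
  ∑ s, (χ s ^ 2 + χ s * χ (s ∘ Equiv.swap a b))

/-- The quadratic form of `∑ w_ab (1 + SWAP_ab)`, the sum over all unordered pairs `a < b`. -/
def wForm {n : ℕ} (w : Fin n → Fin n → ℝ) (χ : (Fin n → Bool) → ℝ) : ℝ :=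
  ∑ a, ∑ b, if a < b then w a b * pairForm a b χ else 0

/-- The quadratic form of the multigraph with the edges `E`. -/
def form (n : ℕ) (E : List (ℕ × ℕ)) (χ : (Fin n → Bool) → ℝ) : ℝ :=
  (E.map fun e => if h : e.1 < n ∧ e.2 < n then pairForm ⟨e.1, h.1⟩ ⟨e.2, h.2⟩ χ else 0).sum

/-- Instances of HEIS: number of sites, edges, threshold. -/
abbrev Code : Type := ℕ × List (ℕ × ℕ) × ℕ

/-- Well-formed instances: the edges are pairs `a < b < n`, and there are at least as many edges as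
sites (so that the number of sites is at most the length of the input). -/
def Good (c : Code) : Prop :=
  1 ≤ c.1 ∧ c.1 ≤ c.2.1.length ∧ ∀ e ∈ c.2.1, e.1 < e.2 ∧ e.2 < c.1

/-- The YES instances. -/
def Yes : Set Code :=
  {c | Good c ∧ ∃ χ : (Fin c.1 → Bool) → ℝ, 0 < nsq χ ∧ form c.1 c.2.1 χ ≤ c.2.2 * nsq χ}

/-- The NO instances. -/
def No : Set Code :=
  {c | Good c ∧ ∀ χ : (Fin c.1 → Bool) → ℝ, (c.2.2 + 1) * nsq χ ≤ form c.1 c.2.1 χ}

/-- Second half of line Q: the reduction of HEIS to the electronic problem. -/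
def ToContStmt : Prop :=
  ∃ (c : ℕ) (g : Code → Instance), 1 ≤ c ∧
    (∃ G : Word → Word, FP ∅ G ∧ ∀ x : Code, G (enc x) = instW (g x)) ∧
    (∀ x ∈ Yes, g x ∈ P370.Yes c) ∧ (∀ x ∈ No, g x ∈ P370.No c)

/-- First half of line Q, for a promise problem on words: it reduces to HEIS. -/
def ReducesTo (yes no : Set (List Bool)) : Prop :=
  ∃ f : Word → Code, PT ∅ (fun x : Raw => f x.w) ∧ (∀ x ∈ yes, f x ∈ Yes) ∧ (∀ x ∈ no, f x ∈ No)

end Vale.Agent.P370.Heis
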