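import Mathlib

/-!
XOR instances (pairs of literals; a pair is cut if its literals have different values), the
arrangement of cells (buses and mediators) of an XOR instance in the plane, its classical
Ising energy, and the Coulomb energies of the corresponding configurations of unit charges.
-/

namespace Vale.Agent.P370

/-- The sign of a Boolean. -/
def sg (b : Bool) : ℝ := if b then 1 else -1

/-- An XOR instance: `n` Boolean variables and `m` pairs of literals (variable, sign). -/
structure XorInst where
  /-- number of variables -/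
  n : ℕ
  /-- number of pairs -/
  m : ℕ
  /-- first literal -/
  l : Fin m → Fin n × Bool
  /-- second literal -/
  r : Fin m → Fin n × Bool

namespace XorInst

/-- The value `±1` of a literal. -/
def lv {n : ℕ} (p : Fin n × Bool) (s : Fin n → Bool) : ℝ := sg p.2 * sg (s p.1)

/-- Twice the number of cut pairs. -/
noncomputable def val (I : XorInst) (s : Fin I.n → Bool) : ℝ := ∑ e, |lv (I.l e) s - lv (I.r e) s|

/-- The cells of length `X`: bus cells `(i, x)` and mediator cells `e`. -/
abbrev Cell (I : XorInst) (X : ℕ) : Type := (Fin I.n × Fin X) ⊕ Fin I.m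

/-- Position of the contact of the first literal of the pair `e`. -/
def posL (I : XorInst) (Lam : ℕ) (e : Fin I.m) : ℕ := (e + 1) * Lam + if (I.l e).2 then 0 else 1

/-- Position of the contact of the second literal of the pair `e`. -/
def posR (I : XorInst) (Lam : ℕ) (e : Fin I.m) : ℕ := (e + 1) * Lam + if (I.r e).2 then 1 else 0

/-- Number of contacts of the bus `i` at the place `x`. -/
def contacts (I : XorInst) (Lam : ℕ) (i : Fin I.n) (x : ℕ) : ℕ :=
  ∑ e, ((if (I.l e).1 = i ∧ x = I.posL Lam e then 1 else 0) +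
    (if (I.r e).1 = i ∧ x = I.posR Lam e then 1 else 0))

/-- Height of a cell. -/
def hgt (I : XorInst) (Lam W : ℕ) {X : ℕ} : I.Cell X → ℕ
  | .inl (i, x) => 20 + I.contacts Lam i x
  | .inr _ => W

/-- First planar coordinate of a cell, in units of the spacing of the buses. -/
noncomputable def cx (I : XorInst) (Lam : ℕ) {X : ℕ} : I.Cell X → ℝ
  | .inl (_, x) => (x : ℕ)
  | .inr e => ((e : ℕ) + 1) * Lam + 1 / 2

/-- Second planar coordinate of a cell, in units of the spacing of the buses. -/
noncomputable def cy (I : XorInst) (ell D : ℕ) {X : ℕ} : I.Cell X → ℝ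
  | .inl (i, _) => D + ell * (i : ℕ)
  | .inr _ => 0

/-- Planar distance of two cells. -/
noncomputable def dst (I : XorInst) (ell D Lam : ℕ) {X : ℕ} (c c' : I.Cell X) : ℝ :=
  Real.sqrt ((I.cx Lam c - I.cx Lam c') ^ 2 + (I.cy ell D c - I.cy ell D c') ^ 2)

/-- The Ising energy of a configuration of signs. -/
noncomputable def ising (I : XorInst) (ell D Lam W : ℕ) {X : ℕ} (t : I.Cell X → Bool) : ℝ :=
  1 / 2 * ∑ c, ∑ c' ∈ Finset.univ.erase c,
    (I.hgt Lam W c : ℝ) * I.hgt Lam W c' * (sg (t c) * sg (t c')) / I.dst ell D Lam c c' ^ 3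

/-- The ordered configuration of signs given by values of the variables and of the mediators:
the signs alternate along the buses. -/
def ord (I : XorInst) {X : ℕ} (s : Fin I.n → Bool) (v : Fin I.m → Bool) : I.Cell X → Bool
  | .inl (i, x) => if (x : ℕ) % 2 = 0 then s i else !(s i)
  | .inr e => v e

/-- Statement of the classical reduction (block P6): for these parameters (`q ≥ 1000 (n + m + 1)`)
the minimum of the Ising energy is attained at ordered configurations, where it is given by the
XOR instance up to `J / 4`, `J = W / D ^ 3`. -/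
def IsingStmt : Prop :=
  ∀ (I : XorInst) (q : ℕ), 1000 * (I.n + I.m + 1) ≤ q →
    ∀ ell D Lam W X : ℕ, ell = q ^ 32 → D = q ^ 34 → Lam = 2 * q ^ 57 → W = q ^ 67 →
      X = (I.m + 2) * Lam →
      ∃ G : ℝ,
        (∀ (s : Fin I.n → Bool) (v : Fin I.m → Bool),
          |I.ising ell D Lam W (X := X) (I.ord s v) -
            (G + (W : ℝ) / (D : ℝ) ^ 3 * ∑ e, sg (v e) * (lv (I.l e) s - lv (I.r e) s))| ≤
              (W : ℝ) / (D : ℝ) ^ 3 / 4) ∧
        ∀ t : I.Cell X → Bool, ∃ s v,
          I.ising ell D Lam W (I.ord s v : I.Cell X → Bool) ≤ I.ising ell D Lam W t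

end XorInst

/-! ### Cells and sites -/

section cells

variable {κ : Type} [Fintype κ] [DecidableEq κ]

/-- The distance of the sites `(c, b)` and `(c', b')`: `u r c c'` is the planar distance of the
cells, `h c` the height of the cell `c` (the sites are at heights `±h c`). -/
noncomputable def siteDist (u : ℝ) (r : κ → κ → ℝ) (h : κ → ℝ) (p p' : κ × Bool) : ℝ :=
  Real.sqrt ((u * r p.1 p'.1) ^ 2 + (sg p.2 * h p.1 - sg p'.2 * h p'.1) ^ 2)

/-- Coulomb energy of unit charges at the sites of a finite set. -/
noncomputable def coulE {ι : Type} [DecidableEq ι] (d : ι → ι → ℝ) (T : Finset ι) : ℝ :=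
  1 / 2 * ∑ p ∈ T, ∑ p' ∈ T.erase p, 1 / d p p'

/-- The set of sites given by a configuration of signs. -/
def sites (t : κ → Bool) : Finset (κ × Bool) := Finset.univ.image fun c => (c, t c)

/-- Ising energy of a system of cells. -/
noncomputable def isingE (r : κ → κ → ℝ) (h : κ → ℝ) (t : κ → Bool) : ℝ :=
  1 / 2 * ∑ c, ∑ c' ∈ Finset.univ.erase c, h c * h c' * (sg (t c) * sg (t c')) / r c c' ^ 3

end cells

/-- Statement of block P5: the Coulomb energy of one unit charge in each cell is the Ising energy
up to a constant and a small error, and it is not lowered by other configurations with the same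
number of charges. -/
def CellStmt : Prop :=
  ∀ (κ : Type) [Fintype κ] [DecidableEq κ] (r : κ → κ → ℝ) (h : κ → ℝ) (u W : ℝ),
    1 ≤ W → (∀ c, 1 ≤ h c ∧ h c ≤ W) → (∀ c c', r c c' = r c' c) →
    (∀ c, r c c = 0) → (∀ c c', c ≠ c' → 1 ≤ r c c') → 4 * W * (Fintype.card κ + 1) ≤ u →
    (∃ A : ℝ, ∀ t : κ → Bool,
      |coulE (siteDist u r h) (sites t) - (A + isingE r h t / u ^ 3)| ≤
        3 * (Fintype.card κ : ℝ) ^ 2 * W ^ 4 / u ^ 5) ∧
    ∀ T : Finset (κ × Bool), T.card = Fintype.card κ →
      ∃ t : κ → Bool, coulE (siteDist u r h) (sites t) ≤ coulE (siteDist u r h) T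

end Vale.Agent.P370
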