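import Vale.Agent.P370.Defs
import Vale.Agent.P370.Xor
import Vale.Agent.Lib.PCP.Defs

/-!
Statements of the blocks of the NP-hardness proof (problem P370).
-/

namespace Vale.Agent.P370

open Vale.Agent.P363.Stmt
open Vale.Agent.Lib.PCP (CNF3 Lit)

/-! ### Analysis: protons at large distances -/

/-- Energy of the choice `S` of the occupied protons: repulsion of the electrons minus attraction
by the other protons. -/
noncomputable def selE {M : ℕ} (R : Fin M → R3) (S : Finset (Fin M)) : ℝ :=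
  1 / 2 * ∑ i ∈ S, ∑ j ∈ S.erase i, 1 / ‖R i - R j‖ -
    ∑ i ∈ S, ∑ j ∈ Finset.univ.erase i, 1 / ‖R i - R j‖

/-- One-body comparison potential: `-1/2 - C/ρ²` within distance `2 ρ` of a proton, plus the
attraction by the protons at distance `> 2 ρ`. -/
noncomputable def nearW {M : ℕ} (R : Fin M → R3) (ρ C : ℝ) (x : R3) : ℝ :=
  ∑ j, if ‖x - R j‖ ≤ 2 * ρ then -(1 / 2 + C / ρ ^ 2) else -(1 / ‖x - R j‖)

/-- Block A1 (sharp hydrogen inequality + IMS localisation in the coordinate of one electron). -/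
def OneBodyStmt : Prop :=
  ∃ C : ℝ, 0 < C ∧ ∀ (M : ℕ) (R : Fin M → R3) (ρ : ℝ), 2 ≤ ρ →
    (∀ j k, j ≠ k → 8 * ρ ≤ ‖R j - R k‖) →
    ∀ (N : ℕ) (Ψ : ElectronState N) (s : Fin N → Fin 2) (i : Fin N),
      intR (fun x => nearW R ρ C (x i) * ‖Ψ.amp s x‖ ^ 2) ≤
        1 / 2 * (∑ k, intR fun x => ‖Ψ.grad s i k x‖ ^ 2) +
          intR fun x => (∑ j, -(1 / ‖x i - R j‖)) * ‖Ψ.amp s x‖ ^ 2

/-- Block A2 (pointwise lower bound of the comparison potential by the best choice of `N` different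
protons). -/
def PointStmt : Prop :=
  ∀ C₁ : ℝ, 0 < C₁ → ∃ C : ℝ, 0 < C ∧ ∀ (M N : ℕ) (R : Fin M → R3) (μ : ℝ), 1 ≤ N → N ≤ M →
    C * M ≤ μ → (∀ j k, j ≠ k → μ ^ 3 ≤ ‖R j - R k‖) →
    ∀ x : Fin N → R3, Function.Injective x → ∃ S : Finset (Fin M), S.card = N ∧
      -(N : ℝ) / 2 + selE R S - C * (M : ℝ) ^ 2 / μ ^ 4 ≤
        (∑ i, nearW R (μ ^ 2) C₁ (x i)) + ∑ i, ∑ k ∈ Finset.Ioi i, 1 / ‖x i - x k‖

/-- Block A3 (lower bound for the energy; from A1 and A2). -/
def LowerStmt : Prop :=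
  ∃ C : ℝ, 0 < C ∧ ∀ (M N : ℕ) (R : Fin M → R3) (μ : ℝ), 1 ≤ N → N ≤ M →
    C * M ≤ μ → (∀ j k, j ≠ k → μ ^ 3 ≤ ‖R j - R k‖) →
    ∀ Ψ : ElectronState N, normSq Ψ = 1 → ∃ S : Finset (Fin M), S.card = N ∧
      -(N : ℝ) / 2 + selE R S - C * (M : ℝ) ^ 2 / μ ^ 4 ≤
        energy (coulombPotential (fun _ => 1) R) Ψ

/-- Block A4 (trial states: Slater determinants of cut-off hydrogen ground states with disjoint
supports, all spins up). -/
def UpperStmt : Prop :=
  ∃ C : ℝ, 0 < C ∧ ∀ (M N : ℕ) (R : Fin M → R3) (μ : ℝ), 1 ≤ N → N ≤ M →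
    C * M ≤ μ → (∀ j k, j ≠ k → μ ^ 3 ≤ ‖R j - R k‖) →
    ∀ S : Finset (Fin M), S.card = N → ∃ Ψ : ElectronState N, normSq Ψ = 1 ∧
      energy (coulombPotential (fun _ => 1) R) Ψ ≤
        -(N : ℝ) / 2 + selE R S + C * (M : ℝ) ^ 2 / μ ^ 4

/-- Block A5: the set of energies is bounded below (so that `groundEnergy` is a true infimum), for
all molecules. -/
def BddStmt : Prop :=
  ∀ (M N : ℕ) (Z : Fin M → ℕ) (R : Fin M → R3),
    BddBelow {e : ℝ | ∃ Ψ : ElectronState N, normSq Ψ = 1 ∧ energy (coulombPotential Z R) Ψ = e}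

/-! ### From 3-SAT to XOR instances -/

/-- The variables of a formula, in the order of their occurrences. -/
def varList (φ : CNF3) : List ℕ := φ.flatMap fun c => [c.1.1, c.2.1.1, c.2.2.1]

/-- A literal with its variable renamed by the place of its first occurrence. -/
def renLit (φ : CNF3) (l : Lit) : ℕ × Bool := ((varList φ).idxOf l.1, l.2)

/-- The six pairs of literals of the clause `j`; `3 C` is the variable `F`, `3 C + 1 + j` the
variable `y_j`, where `C` is the number of clauses. -/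
def clausePairs (φ : CNF3) (j : ℕ) (c : Lit × Lit × Lit) : List ((ℕ × Bool) × (ℕ × Bool)) :=
  let a := renLit φ c.1
  let b := renLit φ c.2.1
  let d := renLit φ c.2.2
  let F : ℕ × Bool := (3 * φ.length, true)
  let y : ℕ × Bool := (3 * φ.length + 1 + j, true)
  let y' : ℕ × Bool := (3 * φ.length + 1 + j, false)
  [(a, b), (b, y), (a, y), (y', d), (d, F), (y', F)]

/-- All pairs of literals. -/
def allPairs (φ : CNF3) : List ((ℕ × Bool) × (ℕ × Bool)) :=
  φ.zipIdx.flatMap fun p => clausePairs φ p.2 p.1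

/-- Block S1: the lengths and the range of the variables. -/
def PairsStmt : Prop :=
  ∀ φ : CNF3, (allPairs φ).length = 6 * φ.length ∧
    ∀ p ∈ allPairs φ, p.1.1 < 4 * φ.length + 1 ∧ p.2.1 < 4 * φ.length + 1

/-- The XOR instance of a formula, given that the variables are in the right range. -/
def xorOf (h : PairsStmt) (φ : CNF3) : XorInst where
  n := 4 * φ.length + 1
  m := 6 * φ.length
  l := fun e =>
    let p := (allPairs φ)[(e : ℕ)]'((h φ).1.symm ▸ e.2)
    (⟨p.1.1, ((h φ).2 p (List.getElem_mem _)).1⟩, p.1.2)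
  r := fun e =>
    let p := (allPairs φ)[(e : ℕ)]'((h φ).1.symm ▸ e.2)
    (⟨p.2.1, ((h φ).2 p (List.getElem_mem _)).2⟩, p.2.2)

/-- Block S2: satisfiable formulas give the value `8 C`, unsatisfiable ones at most `8 C - 4`. -/
def SatStmt (h : PairsStmt) : Prop :=
  ∀ φ : CNF3, (φ.Sat → ∃ s, (8 * φ.length : ℝ) ≤ (xorOf h φ).val s) ∧
    (∀ s, (xorOf h φ).val s ≤ 8 * φ.length) ∧
    (¬ φ.Sat → ∀ s, (xorOf h φ).val s ≤ 8 * φ.length - 4)

end Vale.Agent.P370
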