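import Vale.Agent.P370.Alg
import Vale.Agent.P333.NP.Main

/-!
Assembly: NP-hardness from the blocks T1 (polynomial time) and T2 (correctness).
-/

namespace Vale.Agent.P370

open Vale.Agent.Lib.PCP Vale.Agent.Lib.PolyTime Vale.Agent.P333 Vale.Agent.P333.NP

theorem inst_integerProtons (C₀ : ℕ) (φ : CNF3) : (Alg.inst C₀ φ).IntegerProtons := by
  intro p hp
  simp only [Alg.inst, List.mem_map] at hp
  obtain ⟨x, _, rfl⟩ := hp
  refine ⟨rfl, ?_, ?_, ?_⟩ <;> exact Rat.den_natCast _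

/-- NP-hardness, from the blocks. -/
theorem npHard_of (h1 : AlgPTStmt) (h2 : AlgCorrectStmt) (c : ℕ) (hc : 1 ≤ c) :
    NPHard (Yes c ∩ {I | I.IntegerProtons}) (No c ∩ {I | I.IntegerProtons}) := by
  intro L hL
  obtain ⟨V, p, ⟨MV⟩, hV⟩ := hL
  obtain ⟨W, hW, hW'⟩ := exists_FP_of_tm2 (A := ∅) MV
  have hW2 : ∀ x y, W (pr x y) = [V (x, y)] := by
    intro x y
    rw [← hW' (x, y), pairW_eq]
  obtain ⟨F, hF, hF'⟩ := CL.cook_levin (L := L) hW p fun x => by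
    rw [hV x]
    refine exists_congr fun y => and_congr_right fun _ => ?_
    rw [hW2]
    simp
  obtain ⟨C₀, hC₀, hcor⟩ := h2
  obtain ⟨g, hg, hg'⟩ := h1 C₀ hC₀
  refine ⟨fun x => Alg.inst C₀ (F x), ?_, fun x hx => ?_, fun x hx => ?_⟩
  · refine tm2_of_polyTimeFun _ _ _ (fun x => g (enc (F x))) (polyTimeFun_iff.2 (hg.comp hF))
      fun x => ?_
    exact hg' _
  · exact ⟨⟨(hcor _).1 c hc, (hcor _).2.1 ((hF' x).1 hx)⟩, inst_integerProtons _ _⟩
  · exact ⟨⟨(hcor _).1 c hc, (hcor _).2.2 fun h => hx ((hF' x).2 h)⟩, inst_integerProtons _ _⟩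

end Vale.Agent.P370
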